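import Crest.Agent.X212.Shf6.Tr
import Crest.Agent.X212.Unq6.Main
import Crest.Agent.X212.Gl50.Pre
import Crest.Agent.X212.Rw54.Defs

/-!
# Row 212, GL-SHIFT (helper6), part 2: small changes of the shifts
-/

set_option autoImplicit false
set_option linter.unusedSectionVars false
noncomputable section
open scoped Manifold ContDiff Topology InnerProductSpace ENNReal
open MeasureTheory Set Function Filter

namespace Crest.Agent.X212.Shf6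
open An Sw Sob92 Cyf70 Sw.En3 Gls64 Pb50
open Sm10.Dg (Nl N0 I2 tendsto_le aem2 ev_ct)
open M (Mf pm)

variable {κ lam ν : Type} [Fintype κ] [Fintype lam] [Fintype ν] [DecidableEq ν]
  {d : Dt κ lam ν} {X X₁ X₂ : Mf 4} {nc nr n₁ r₁ n₂ r₂ k : ℕ}
  {T T₁ T₂ : Type} [NormedAddCommGroup T] [NormedSpace ℝ T] [FiniteDimensional ℝ T]
  [NormedAddCommGroup T₁] [NormedSpace ℝ T₁] [FiniteDimensional ℝ T₁]
  [NormedAddCommGroup T₂] [NormedSpace ℝ T₂] [FiniteDimensional ℝ T₂]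
  {α : Type} {l : Filter α}

theorem cen_half {N : Type} [Fintype N] {ty : N → d.𝓔} {s : Pz X 0 fun i => d.e (ty i)}
    {σ : Cel s nc nr T} (h : σ.OK) {j : N} {K : Nk (d.e (ty j)) s.bg} (hK : K ∈ s.nk j)
    (hp : K.p = none) (hq : K.q = none) {y : α → σ.Pnt} {x : σ.Pnt}
    (hy : Tendsto (fun i => σ.dk k (y i) x) l (𝓝 0)) {ε : α → ℝ} (hε : Tendsto ε l (𝓝 0))
    {c : α → Cfg X.M κ ν} {O A : α → Set X.M} (hO : ∀ᶠ i in l, IsOpen (O i) ∧ A i ⊆ O i ∧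
      ∀ z, K.ψ z ∈ O i → (∀ a, (c i).a a (K.ψ z) = (y i).1.2.a a (K.ψ (z.1, z.2 + ε i))) ∧
        (c i).Φ (K.ψ z) = (y i).1.2.Φ (K.ψ (z.1, z.2 + ε i)))
    (w : List (Option κ)) (hw : w.length ≤ k) :
    Tendsto (fun i => dO σ (A i) (y i).1.1 (c i) x w) l (𝓝 0) := by
  have o := h.toOK
  obtain ⟨h1, h2, -⟩ := (Gl50.dk_iff o (cr_of_gd h.gd)).1 hy
  have inf : ∀ b, K.Inf b := fun b => by cases b <;> assumption
  obtain ⟨a1, a2⟩ := ((as_fam o x.2.1 _ _).1 x.2.2).1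
  have a3 := fun b => a2 j b K hK (inf b)
  have a4 := fun b => (h.gd j b ⟨K, hK, inf b⟩).crit.1
  simp only [Nk.Asy, Nk.far, Nd18.Nk.J, hp, hq, Nd18.Jv, Option.not_mem_none, false_imp_iff,
    implies_true, and_self, ofPred_true, univ_inter] at a3
  have sa : ∀ y : σ.Pnt, Sm X.I (σ.al y.1.1 y.1.2) := fun y p =>
    Gl50.sa_toLp fun a => ((adm_fam o y.2.1 _).1 y.2.2.1).1.sa a p
  have k1 := key hp hq (f := fun i => σ.al (y i).1.1 (c i)) (fun i => sa (y i)) (sa x)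
    (hO.mono fun i m => ⟨m.1, fun z hz => by
      simp only [Fam.al, Si_nk o (y i).2.1 hK (src hp hq _), K.P _ _ _ (src hp hq _), (m.2.2 z hz).1]
      exact congrArg _ (funext fun a => Finset.sum_congr rfl fun b _ => congrArg (· * _)
        ((Cut71.sH_lit (ε i)).P a b z trivial).symm)⟩)
    (tendsto_le h1 (.of_forall fun i => Gl50.word_le hw))
    (Nl.toLp (X := (d.e (ty j)).Z) (.of_forall fun _ => isOpen_univ) fun a =>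
      tr2 hε (sm_ψ hp hq (a1.sa a)) (fun b => (a4 b).sa a)
        (fun b s z => congrArg (fun c => Cfg.a c a z) (Cut71.shf_fz s _))
        fun b => (a3 b).imp fun _ m => m.1 a)
  have k2 := key hp hq (f := fun i => (c i).Φ) (fun i => (y i).2.2.1.sΦ) x.2.2.1.sΦ
    (hO.mono fun i m => ⟨m.1, fun z hz => (m.2.2 z hz).2⟩)
    (tendsto_le h2 (.of_forall fun i => Gl50.word_le hw))
    (tr2 hε (sm_ψ hp hq a1.sΦ) (fun b => (a4 b).sΦ) (fun _ _ _ => rfl)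
      fun b => (a3 b).imp fun _ m => m.2)
  exact tendsto_le (by simpa [I2] using k1.z.add k2.z) ((hO.and k1.sm).mono fun i m =>
    (lintegral_mono_set m.1.2.1).trans (lintegral_add_left' (aem2 m.2.1 m.2.2) _).le)

variable [Fintype d.𝓔] {Sl : Type} [Fintype Sl]

theorem side {s : StS d Sl X} {s₁ : StS d Sl X₁} {σ : Cel s nc nr T} {σ₁ : Cel s₁ n₁ r₁ T₁}
    (h : σ₁.OK) {ε : d.𝓔} {a a' : Sl} {b : Bool} {K : Nk (d.e ε) s₁.bg} (hK : K ∈ s₁.nk (ε, a'))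
    {y : α → σ.Pnt} {y₁ : α → σ₁.Pnt} {x : σ₁.Pnt} {t : α → T₁}
    (hy : Tendsto (fun i => σ₁.dk k (y₁ i) x) l (𝓝 0)) {δ δ' r r' : α → ℝ}
    (hδ : Tendsto (fun i => δ i - δ' i) l (𝓝 0)) (hr : Tendsto (fun i => r i - r' i) l (𝓝 0))
    {φ φ' : α → OpenPartialHomeomorph X₁.M X.M}
    (ha : ∀ᶠ i in l, ((y₁ i).1.1 = t i ∧ Ag (φ' i) {p | ht K b p < r' i + 2} (y i).1.2 (y₁ i).1.2) ∧
      {p | ht K b p < r' i + 2} ⊆ (φ' i).source)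
    (H : (∀ᶠ i in l, φ i = φ' i) ∨ σ₁.Cen (ε, a') ∧ ∀ᶠ i in l, ∃ (P : PcS d Sl X nc), ∃ ρ ρ' O π cc J,
      Half P (σ₁.P (t i)) ε a a' b (φ i) (δ i) ρ O π cc J ∧
        Half P (σ₁.P (t i)) ε a a' b (φ' i) (δ' i) ρ' O π cc J)
    (w : List (Option κ)) (hw : w.length ≤ k) : Tendsto (fun i =>
      dO σ₁ {p | ht K b p ≤ r i + 1} (t i) ((y i).1.2.pb (φ i)) x w) l (𝓝 0) := by
  have hg := (Gl50.hg_ht (o := b) K).sm.continuous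
  have h1 := hr.eventually_lt_const (u := 1 / 4) (by norm_num)
  refine Tendsto.congr' (f₁ := fun i => dO σ₁ {p | ht K b p ≤ r i + 1} (y₁ i).1.1
    ((y i).1.2.pb (φ i)) x w) (ha.mono fun i m => by simp only [m.1.1]) ?_
  rcases H with H | ⟨⟨-, -, -, -, -, ⟨K', a1, hp, hq⟩, -⟩, H⟩
  · refine Gl50.nr_half h hg hy ?_ w hw
    filter_upwards [ha, H, h1] with i m1 m2 m3
    exact ⟨_, by linarith, m2 ▸ m1.1.2⟩
  obtain rfl := Option.mem_unique hK a1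
  have e : ∀ z, ht K b (K.ψ z) = pm b * z.2 := fun z => by
    rw [ht, Nd18.Nk.τ, hp, hq, Nd18.tf_none, K.tm_ψ _ (src hp hq z)]
  have J : ∀ τ, τ ∈ K.J := fun τ => by simp [Nd18.Nk.J, hp, hq, Nd18.Jv]
  refine cen_half h hK hp hq hy hδ (O := fun i => {p | ht K b p < r i + 3 / 2}) ?_ w hw
  filter_upwards [ha, H, h1, hδ.abs.eventually_lt_const (u := 1 / 4) (by norm_num)] with i m1
    ⟨P, _, _, _, _, _, _, m2, m3⟩ m4 m5
  refine ⟨isOpen_lt hg continuous_const, fun p hp => lt_of_le_of_lt (mem_ofPred.1 hp) (by linarith),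
    fun z hz => ?_⟩
  have q : t i ∈ σ₁.Q := m1.1.1 ▸ (y₁ i).2.1
  obtain ⟨L, b1, -, -, b2⟩ := Unq6.half_site h.toOK q m2 hK
  obtain ⟨L', b3, -, b4, b5⟩ := Unq6.half_site h.toOK q m3 hK
  obtain rfl := Option.some.inj (b1.symm.trans b3)
  have b6 : K.ψ (z.1, z.2 + (δ i - δ' i)) ∈ {p | ht K b p < r' i + 2} := by
    simp only [mem_ofPred, e] at hz ⊢
    linarith [(abs_lt.1 ((Cut71.abs_pm b _).trans_lt m5)).2]
  have b7 := (b4 _).1 (m1.2 b6)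
  rw [K.tm_ψ _ (src hp hq _)] at b7
  have b8 : φ i (K.ψ z) = φ' i (K.ψ (z.1, z.2 + (δ i - δ' i))) := by
    rw [b5 _ _ (J _) (b7 (J _)), b2 z.1 z.2 (J _) (by simpa [add_assoc] using b7 (J _))]
    simp [add_assoc]
  simpa only [Cfg.pb, b8] using m1.1.2 _ b6

variable (d X X₁ X₂ nc nr n₁ r₁ n₂ r₂ T T₁ T₂ Sl) in
/-- **GL-SHIFT** -/
theorem shift (hM : MtStmt d X X₁ X₂ nc nr n₁ r₁ n₂ r₂ T T₁ T₂ Sl) :
    Rw54.ShiftStmt d X X₁ X₂ nc nr n₁ r₁ n₂ r₂ T T₁ T₂ Sl := by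
  intro s s₁ s₂ σ σ₁ σ₂ p hg hp K₁ k₁ K₂ k₂ j₁ j₂ ho x z ι l δ δ' hδ hδ' hd k _ y t₁ t₂ h
  have G : (sp p (ht K₁ true) (ht K₂ false)).Geo σ σ₁ σ₂ := ⟨hp.ok, hp.okL, hp.okR,
    Fht9.htStmt _ _ _ _ _ _ _ _ _ _ _ _ _ _ s s₁ s₂ σ σ₁ σ₂ p hg hp K₁ k₁ K₂ k₂ j₁ j₂, fun J =>
      (Gl50.faceStmt _ _ _ _ _ _ s₁ σ₁ hp.okL _ _ K₁ k₁ j₁ J).and
        ((Gl50.faceStmt _ _ _ _ _ _ s₂ σ₂ hp.okR _ _ K₂ k₂ j₂ J).and
          (hM s s₁ s₂ σ σ₁ σ₂ p hg hp K₁ k₁ K₂ k₂ j₁ j₂ J))⟩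
  obtain ⟨xx, zz, cc, hP⟩ := Gl50.preStmt _ _ _ _ _ _ _ _ _ _ _ _ _ _ s s₁ s₂ σ σ₁ σ₂ p hg hp K₁ k₁ K₂ k₂
    j₁ j₂ x z
  obtain ⟨y₁, a1, a2⟩ := Gl50.cp_half G hP hδ' h
  obtain ⟨y₂, b1, b2⟩ := Gl50.cp_half (Gl50.geo_swap G) (Gl50.pre_swap hP) hδ' (Gl50.nr_swap h)
  have ct : ∀ {δ : ι → ℝ × ℝ}, Tendsto δ l (sp p (ht K₁ true) (ht K₂ false)).lg →
      ∀ᶠ i in l, Sm10.Ct p σ σ₁ σ₂ (t₁ i) (t₂ i) (δ i) := fun hδ =>
    ev_ct hp ((tendsto_div_const_atTop_of_pos four_pos).1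
      (tendsto_comap_iff.1 (hδ.mono_right inf_le_left)))
      ((tendsto_principal.1 (hδ.mono_right inf_le_right)).and
        ((h.l₁.eventually (hp.okL.opn.mem_nhds x.2.1)).and
          (h.l₂.eventually (hp.okR.opn.mem_nhds z.2.1))))
  have c := (ct hδ).and (ct hδ')
  have e : ∀ i, p.par (t₁ i) (t₂ i) (δ' i) = p.par (t₁ i) (t₂ i) (δ i) := fun i => by
    rcases hp.kind with ⟨a, -⟩ | ⟨-, -, -, -, -, a, -⟩ | ⟨-, -, -, -, -, a, -⟩ | ⟨-, a, -⟩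
    exacts [absurd a ho, (a _ _ _).trans (a _ _ _).symm, (a _ _ _).trans (a _ _ _).symm,
      a.2.2.1.elim _ _]
  have cL := c.mono fun i m => (⟨_, _, _, _, _, _, _, m.1.L, e i ▸ m.2.L⟩ :
    ∃ (P : PcS d Sl X nc), ∃ ρ ρ' O π cc J, Half P _ _ _ _ _ _ _ ρ O π cc J ∧
      Half P _ _ _ _ _ _ _ ρ' O π cc J)
  have cR := c.mono fun i m => (⟨_, _, _, _, _, _, _, m.1.R, e i ▸ m.2.R⟩ :
    ∃ (P : PcS d Sl X nc), ∃ ρ ρ' O π cc J, Half P _ _ _ _ _ _ _ ρ O π cc J ∧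
      Half P _ _ _ _ _ _ _ ρ' O π cc J)
  have d1 := (continuous_fst.tendsto _).comp hd
  have d2 := (continuous_snd.tendsto _).comp hd
  have hr : Tendsto (fun i => 2 * (((δ i).2 - (δ i).1) / 4) - 2 * (((δ' i).2 - (δ' i).1) / 4)) l
      (𝓝 0) := by
    simpa using ((d2.sub d1).div_const 2).congr fun i => by simp; ring
  have L := (tendsto_comap_iff.1 (hδ'.mono_right inf_le_left)).eventually_ge_atTop 0
  have sr := ((hδ'.eventually G.ht).and L).mono fun i ⟨⟨g, m1, m2⟩, m3⟩ => And.intro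
    (fun q (hq : ht K₁ true q < 2 * (((δ' i).2 - (δ' i).1) / 4) + 2) => m1.src (hq.trans (by
      simp only [sp, comp] at m3 ⊢; linarith)))
    fun q (hq : ht K₂ false q < 2 * (((δ' i).2 - (δ' i).1) / 4) + 2) => m2.src (hq.trans (by
      simp only [sp, comp] at m3 ⊢; linarith))
  refine ⟨h.t.mono fun i m => m.trans (e i), h.l₁, h.l₂,
    side (a := p.a) hp.okL k₁ a1 d1 hr (a2.and (sr.mono fun _ m => m.1)) ?_,
    side (a := p.a) hp.okR k₂ b1 d2 hr (b2.and (sr.mono fun _ m => m.2)) ?_⟩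
  · rcases hp.kind with ⟨a, -⟩ | ⟨-, -, -, -, -, -, -, -, a⟩ | ⟨-, -, -, a, -⟩ | ⟨-, -, a, -⟩
    exacts [absurd a ho, .inl (c.mono fun i m => a _ m.1.Δ _ m.2.Δ), .inr ⟨a, cL⟩, .inr ⟨a, cL⟩]
  · rcases hp.kind with ⟨a, -⟩ | ⟨-, -, -, a, -⟩ | ⟨-, -, -, -, -, -, -, -, a⟩ | ⟨-, -, -, a, -⟩
    exacts [absurd a ho, .inr ⟨a, cR⟩, .inl (c.mono fun i m => a _ m.1.Δ _ m.2.Δ), .inr ⟨a, cR⟩]

end Crest.Agent.X212.Shf6
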