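import Crest.Agent.X212.Sm10.Dg3

/-!
# Row 212, GL-SHIFT (helper6), part 1: continuity of translations on a cylinder
-/

set_option autoImplicit false
set_option linter.unusedSectionVars false
noncomputable section
open scoped Manifold ContDiff Topology InnerProductSpace ENNReal
open MeasureTheory Set Function Filter

namespace Crest.Agent.X212.Shf6
open An Sw Sob92 Cyf70 Sw.En3 Sm10.Dg
open M (Mf pm)
open Cut71 (shf Dw_sh mp_sH sH sm_sH)

variable {κ lam ν : Type} [Fintype κ] [Fintype lam] [Fintype ν] [DecidableEq ν]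
  {e : En3 κ lam ν} {V : Type} [NormedAddCommGroup V] [NormedSpace ℝ V]
  {α : Type} {l : Filter α} {ε : α → ℝ}

theorem Dw_sub {E HM M ι : Type} [NormedAddCommGroup E] [NormedSpace ℝ E] [FiniteDimensional ℝ E]
    [MeasurableSpace E] [BorelSpace E] [TopologicalSpace HM] {I : ModelWithCorners ℝ E HM}
    [TopologicalSpace M] [ChartedSpace HM M] [IsManifold I ∞ M] [MeasurableSpace M] [T2Space M]
    [BorelSpace M] [SecondCountableTopology M] [Fintype ι] {F : Pre I M ι} {u v : M → V}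
    (hu : Sm I u) (hv : Sm I v) (w : List ι) (x : M) :
    F.Dw w (fun y => u y - v y) x = F.Dw w u x - F.Dw w v x :=
  eq_sub_of_add_eq ((Dw_add_on isOpen_univ w (fun y _ => (hu.sub hv) y) (fun y _ => hv y) x
    trivial).symm.trans (by simp))

theorem tr0 {G : e.Y.M × ℝ → V} (hG : MemLp G 2 e.D.Z.μ) :
    Tendsto (fun s : ℝ => I2 e.D.Z.toPre univ fun x => G (x.1, x.2 + s) - G x) (𝓝 0) (𝓝 0) := by
  let g : C(ℝ, C(e.Y.M × ℝ, e.Y.M × ℝ)) :=
    ContinuousMap.curry ⟨fun p => (p.2.1, p.2.2 + p.1), by fun_prop⟩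
  have h := tendsto_iff_edist_tendsto_0.1 (((continuous_const (y := hG.toLp G)).compMeasurePreservingLp
    g.continuous (fun s => mp_sH s) ENNReal.ofNat_ne_top).tendsto 0)
  have h2 := (ENNReal.continuous_rpow_const (y := 2)).tendsto 0 |>.comp h
  rw [ENNReal.zero_rpow_of_pos two_pos] at h2
  refine h2.congr fun s => ?_
  refine (congrArg (· ^ (2 : ℝ)) (Lp.edist_toLp_toLp _ _ (hG.comp_measurePreserving (mp_sH s))
    (hG.comp_measurePreserving (mp_sH 0)))).trans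
    ((eLpNorm_nnreal_pow_eq_lintegral (p := 2) two_ne_zero).trans ?_)
  simp [I2, Cut71.sH_apply]

theorem I2_sh (G : e.Y.M × ℝ → V) (s : ℝ) :
    I2 e.D.Z.toPre univ (fun x => G (x.1, x.2 + s)) = I2 e.D.Z.toPre univ G := by
  simp only [I2, Measure.restrict_univ]
  exact (mp_sH s).lintegral_comp_emb (sH e s).measurableEmbedding fun x => ‖G x‖ₑ ^ 2

theorem sm_sh {u : e.Y.M × ℝ → V} (hu : Sm (IC e.Y.I) u) (s : ℝ) :
    Sm (IC e.Y.I) fun x : e.Y.M × ℝ => u (x.1, x.2 + s) := hu.comp (sm_sH s)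

theorem tr1 (hε : Tendsto ε l (𝓝 0)) {u : e.Y.M × ℝ → V} (hu : Sm (IC e.Y.I) u) (b : Bool)
    {T : ℝ} (h : Hh e.D.Z.toPre (univ ×ˢ {t | T < pm b * t}) u) :
    Nl e.D.Z.toPre l (fun _ => univ ×ˢ {t | -1 < pm b * t}) fun i x => u (x.1, x.2 + ε i) - u x := by
  have o : ∀ r, IsOpen ((univ : Set e.Y.M) ×ˢ {t | r < pm b * t}) := fun r =>
    isOpen_univ.prod (isOpen_lt continuous_const (by fun_prop))
  refine .mk' (.of_forall fun i => ⟨o _, fun x _ => (sm_sh hu _ x).sub (hu x)⟩) fun w => ?_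
  have c := (sm_Dw (F := e.D.Z.toPre) hu w).continuous
  have m : MemLp ((univ ×ˢ {t | -2 < pm b * t}).indicator (e.D.Z.Dw w u)) 2 e.D.Z.μ := by
    rw [memLp_indicator_iff_restrict (o _).measurableSet,
      memLp_two_iff_integrable_sq_norm c.aestronglyMeasurable]
    refine IntegrableOn.mono_set (((c.norm.pow 2).continuousOn.integrableOn_compact
      (isCompact_univ.prod (isCompact_Icc (a := -(|T| + 2)) (b := |T| + 2)))).union (h w))
      fun x hx => or_iff_not_imp_right.2 fun k => ⟨trivial, abs_le.1 ?_⟩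
    have k1 : pm b * x.2 ≤ T := not_lt.1 fun k1 => k ⟨trivial, k1⟩
    have k2 : -2 < pm b * x.2 := hx.2
    rw [← Cut71.abs_pm b, abs_le]
    constructor <;> linarith [le_abs_self T, abs_nonneg T]
  refine tendsto_le ((tr0 m).comp hε) ((hε.abs.eventually_lt_const (by simp : |(0 : ℝ)| < 1)).mono
    fun i hi => ?_)
  refine le_trans (le_of_eq (setLIntegral_congr_fun (o _).measurableSet fun x hx => ?_))
    (lintegral_mono_set (subset_univ _))
  have k1 : -1 < pm b * x.2 := hx.2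
  have k2 := (abs_lt.1 ((Cut71.abs_pm b (ε i)).trans_lt hi)).1
  simp only
  rw [indicator_of_mem (mk_mem_prod (mem_univ _) (mem_ofPred.2 (by linarith))),
    indicator_of_mem (a := x) (mk_mem_prod (mem_univ _) (mem_ofPred.2 (by linarith))), ← Dw_sh (ε i) w (.of_forall fun _ => rfl), Dw_sub (sm_sh hu _) hu]

theorem tr2 (hε : Tendsto ε l (𝓝 0)) {u : e.Y.M × ℝ → V} (hu : Sm (IC e.Y.I) u)
    {u₀ : Bool → e.Y.M × ℝ → V} (h0 : ∀ b, Sm (IC e.Y.I) (u₀ b))
    (i0 : ∀ b s (x : e.Y.M × ℝ), u₀ b (x.1, x.2 + s) = u₀ b x)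
    (h : ∀ b, ∃ T, Hh e.D.Z.toPre (univ ×ˢ {t | T < pm b * t}) fun x => u x - u₀ b x) :
    Nl e.D.Z.toPre l (fun _ => univ) fun i x => u (x.1, x.2 + ε i) - u x := by
  have k := fun b => (tr1 hε (hu.sub (h0 b)) b (h b).choose_spec).congr
    (f' := fun i x => u (x.1, x.2 + ε i) - u x) (.of_forall fun i x _ => by simp [i0])
  refine (k true).cover (k false) (.of_forall fun i => ⟨isOpen_univ, fun x _ => ?_⟩)
  rcases lt_or_ge (-1) x.2 with m | m
  exacts [.inl ⟨trivial, by simpa [pm] using m⟩, .inr ⟨trivial, by simp [pm]; linarith⟩]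

variable {X : Mf 4} {nc : ℕ} {b : Bg X.I X.M κ lam ν nc} {K : Nk e b} (hp : K.p = none)
  (hq : K.q = none)
include hp hq

theorem src (z : e.Y.M × ℝ) : z ∈ K.ψ.source := by simp [K.src, hp, hq, Nd18.Jv]

theorem tgt (z : X.M) : z ∈ K.ψ.target := by simp [K.tgt, hp, hq, Nd18.Jv]

theorem sm_ψ {u : X.M → V} (hu : Sm X.I u) : Sm (IC e.Y.I) fun z => u (K.ψ z) :=
  fun z => Pb50.sa_ψ K (src hp hq z) (hu _)

theorem I2_ψ {u : X.M → V} (hu : Sm X.I u) (w : List (Option κ)) :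
    I2 b.F.toPre univ (b.F.Dw w u) = I2 e.D.Z.toPre univ (e.D.Z.Dw w fun z => u (K.ψ z)) := by
  have h := I2_iso K.iso isOpen_univ (fun z _ => src hp hq z) fun z _ => sm_Dw (F := b.F.toPre) hu w (K.ψ z)
  rw [eq_univ_of_forall (s := K.ψ '' univ) fun z => ⟨_, trivial, K.ψ.right_inv (tgt hp hq z)⟩] at h
  exact h.symm.trans (congrArg _ (funext fun z => ((Pj41.fRel_of_iso K.iso).Dw (src hp hq z) w
    (.of_forall fun _ => rfl)).symm))

theorem key {f v : α → X.M → V} {u : X.M → V} (hv : ∀ i, Sm X.I (v i)) (hu : Sm X.I u)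
    {O : α → Set X.M} (hO : ∀ᶠ i in l, IsOpen (O i) ∧
      ∀ z, K.ψ z ∈ O i → f i (K.ψ z) = v i (K.ψ (z.1, z.2 + ε i))) {w : List (Option κ)}
    (h1 : Tendsto (fun i => I2 b.F.toPre univ (b.F.Dw w (v i - u))) l (𝓝 0))
    (h2 : Nl e.D.Z.toPre l (fun _ => univ) fun i z => u (K.ψ (z.1, z.2 + ε i)) - u (K.ψ z)) :
    N0 b.F.toPre l O fun i => b.F.Dw w (f i - u) := by
  let g : α → X.M → V := fun i x => v i (K.ψ ((K.ψ.symm x).1, (K.ψ.symm x).2 + ε i)) - u x
  have sg : ∀ i, Sm X.I (g i) := fun i x => ((sm_sh (sm_ψ hp hq (hv i)) (ε i) _).comp x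
    (iso_smAt (iso_symm K.iso) (tgt hp hq x))).sub (hu x)
  have s1 := fun i => sm_ψ hp hq ((hv i).sub hu)
  have h3 : N0 e.D.Z.toPre l (fun _ => univ) fun i =>
      e.D.Z.Dw w fun z => (v i - u) (K.ψ (z.1, z.2 + ε i)) :=
    ⟨.of_forall fun i => ⟨isOpen_univ, fun z _ => sm_Dw (sm_sh (s1 i) _) w z⟩, h1.congr fun i => by
      rw [I2_ψ hp hq (u := v i - u) ((hv i).sub hu), ← I2_sh _ (ε i)]
      exact congrArg _ (funext fun z => (Dw_sh _ w (.of_forall fun _ => rfl)).symm)⟩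
  have h4 : N0 b.F.toPre l (fun _ => univ) fun i => b.F.Dw w (g i) :=
    ⟨.of_forall fun i => ⟨isOpen_univ, fun z _ => sm_Dw (sg i) w z⟩,
      (h3.add (h2 w)).z.congr fun i => by
        rw [I2_ψ hp hq (sg i)]
        refine congrArg _ (funext fun z => (Dw_add_on isOpen_univ w (fun z _ => sm_sh (s1 i) _ z)
          (fun z _ => (sm_sh (sm_ψ hp hq hu) _ z).sub (sm_ψ hp hq hu z)) z trivial).symm.trans ?_)
        simp [g, K.ψ.left_inv (src hp hq _)]⟩
  refine (h4.sub (hO.mono fun i k => ⟨k.1, subset_univ _⟩)).congr (hO.mono fun i k x hx =>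
    Dw_on k.1 w (fun y hy => congrArg (· - u y) ?_) hx)
  rw [← k.2 _ ((K.ψ.right_inv (tgt hp hq y)).symm ▸ hy), K.ψ.right_inv (tgt hp hq y)]

end Crest.Agent.X212.Shf6
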